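import Vale.Agent.P132.MathlibUsed

/-!
# P132: statement-level definitions

`M` is a von Neumann algebra acting on an arbitrary complex Hilbert space `H`
(Mathlib's `VonNeumannAlgebra H`).  Mathlib's inner product `⟪x, y⟫_ℂ` is conjugate linear in `x`
and linear in `y`, so `⟨x η, η⟩` of the usual notation is `⟪η, x η⟫_ℂ`.
-/

open Filter Topology
open scoped InnerProductSpace

namespace Vale.Agent.P132

universe u

section States

variable {H : Type u} [NormedAddCommGroup H] [InnerProductSpace ℂ H] [CompleteSpace H]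

/-- `φ` is a normal state of `M`: there are vectors `η i` with `∑ ‖η i‖² = 1` and
`φ(x) = ∑ ⟨x (η i), η i⟩` for all `x ∈ M` (the values of `φ` outside `M` are irrelevant). -/
def IsNormalState (M : VonNeumannAlgebra H) (φ : (H →L[ℂ] H) → ℂ) : Prop :=
  ∃ η : ℕ → H, HasSum (fun i => ‖η i‖ ^ 2) 1 ∧
    ∀ x ∈ M, HasSum (fun i => ⟪η i, x (η i)⟫_ℂ) (φ x)

/-- `φ` is faithful on `M`. -/
def IsFaithful (M : VonNeumannAlgebra H) (φ : (H →L[ℂ] H) → ℂ) : Prop :=
  ∀ x ∈ M, φ (star x * x) = 0 → x = 0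

/-- The sequence `w` in `M` asymptotically centralizes `φ`: `‖w_n φ - φ w_n‖ → 0` in the predual,
where `(w φ)(y) = φ (y w)`, `(φ w)(y) = φ (w y)`, and the norm of the predual is the norm of a
functional on the unit ball of `M`. -/
def AsympCentralizes (M : VonNeumannAlgebra H) (φ : (H →L[ℂ] H) → ℂ) (w : ℕ → (H →L[ℂ] H)) :
    Prop :=
  ∀ ε : ℝ, 0 < ε → ∀ᶠ n in atTop, ∀ y ∈ M, ‖y‖ ≤ 1 → ‖φ (y * w n) - φ (w n * y)‖ ≤ ε

/-- The bicentralizer `B(M, φ)`: all `a ∈ M` such that `[a, w_n] → 0` strongly for every bounded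
sequence `(w_n)` in `M` which asymptotically centralizes `φ`. -/
def bicentralizer (M : VonNeumannAlgebra H) (φ : (H →L[ℂ] H) → ℂ) : Set (H →L[ℂ] H) :=
  {a | a ∈ M ∧ ∀ w : ℕ → (H →L[ℂ] H), (∀ n, w n ∈ M) → (∃ C : ℝ, ∀ n, ‖w n‖ ≤ C) →
    AsympCentralizes M φ w → ∀ ζ : H, Tendsto (fun n => (a * w n - w n * a) ζ) atTop (𝓝 0)}

/-- `M` is a factor: its center consists of the scalars. -/
def IsFactor (M : VonNeumannAlgebra H) : Prop :=
  ∀ z ∈ M, z ∈ M.commutant → ∃ c : ℂ, z = c • 1

/-- Murray-von Neumann equivalence of the projections `e` and `f` of `M`. -/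
def MvNEquiv (M : VonNeumannAlgebra H) (e f : H →L[ℂ] H) : Prop :=
  ∃ v ∈ M, star v * v = e ∧ v * star v = f

/-- The projection `e` of `M` is finite: it is not equivalent to a proper subprojection `f`. -/
def IsFiniteProj (M : VonNeumannAlgebra H) (e : H →L[ℂ] H) : Prop :=
  ∀ f ∈ M, star f = f → f * f = f → e * f = f → MvNEquiv M e f → f = e

/-- `M` is of type III: it has no nonzero finite projection. -/
def IsTypeIII (M : VonNeumannAlgebra H) : Prop :=
  ∀ e ∈ M, star e = e → e * e = e → e ≠ 0 → ¬ IsFiniteProj M e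

end States

section Modular

variable {H : Type u} [NormedAddCommGroup H] [InnerProductSpace ℂ H] [CompleteSpace H]

/-- The GNS space of `φ`: a Hilbert space `K` with a map `Λ : M → K` with dense range and
`⟨Λ y, Λ x⟩ = φ(x* y)` (so `Λ` is linear on `M`); it is unique up to unitary equivalence.
The values of `Λ` outside `M` are irrelevant. -/
structure GNSSpace (M : VonNeumannAlgebra H) (φ : (H →L[ℂ] H) → ℂ) (K : Type u)
    [NormedAddCommGroup K] [InnerProductSpace ℂ K] where
  Λ : (H →L[ℂ] H) → K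
  dense : Dense {ζ : K | ∃ x ∈ M, Λ x = ζ}
  inner : ∀ x ∈ M, ∀ y ∈ M, ⟪Λ x, Λ y⟫_ℂ = φ (star x * y)

variable {M : VonNeumannAlgebra H} {φ : (H →L[ℂ] H) → ℂ} {K : Type u}
  [NormedAddCommGroup K] [InnerProductSpace ℂ K]

/-- The graph of the closure of the conjugate linear operator `S : Λ x ↦ Λ (x*)`. -/
def GNSSpace.graphS (G : GNSSpace M φ K) : Set (K × K) :=
  closure {p | ∃ x ∈ M, p = (G.Λ x, G.Λ (star x))}

/-- The graph of the modular operator `Δ = S* S` (`S` the closed operator above): `(ζ, θ)` belongs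
to it if and only if `ζ` is in the domain of `S`, `S ζ` is in the domain of `S*`, and
`S* S ζ = θ`.  Here `S* η = θ` means `⟨S ζ', η⟩ = ⟨θ, ζ'⟩` (inner product conjugate linear in the
first variable) for all `ζ'` in the domain of `S`; it suffices to take `ζ' = Λ x`. -/
def GNSSpace.graphΔ (G : GNSSpace M φ K) : Set (K × K) :=
  {p | ∃ η : K, (p.1, η) ∈ G.graphS ∧ ∀ x ∈ M, ⟪G.Λ (star x), η⟫_ℂ = ⟪p.2, G.Λ x⟫_ℂ}

/-- The spectrum of the modular operator: all real `t` such that `Δ - t` is not a bijection from the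
domain of `Δ` onto `K`. -/
def GNSSpace.spectrumΔ (G : GNSSpace M φ K) : Set ℝ :=
  {t | ¬ ∀ ζ' : K, ∃! ζ : K, (ζ, (t : ℂ) • ζ + ζ') ∈ G.graphΔ}

end Modular

section TypeIII₁

variable {H : Type u} [NormedAddCommGroup H] [InnerProductSpace ℂ H] [CompleteSpace H]

/-- Connes' invariant `S(M)`: the intersection of the spectra of the modular operators of the
faithful normal states of `M`. -/
def connesS (M : VonNeumannAlgebra H) : Set ℝ :=
  {t | ∀ φ : (H →L[ℂ] H) → ℂ, IsNormalState M φ → IsFaithful M φ →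
    ∀ (K : Type u) [NormedAddCommGroup K] [InnerProductSpace ℂ K] [CompleteSpace K]
      (G : GNSSpace M φ K), t ∈ G.spectrumΔ}

/-- Type III₁ factors. -/
structure IsTypeIII₁Factor (M : VonNeumannAlgebra H) : Prop where
  factor : IsFactor M
  typeIII : IsTypeIII M
  connes : connesS M = Set.Ici 0

end TypeIII₁

end Vale.Agent.P132
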