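import Vale.Agent.P132.FinalDefs

/-!
# P132: faithful normal semifinite weights, and the literal definition of type III₁ factors
-/

open Filter Topology
open scoped InnerProductSpace ENNReal NNReal

namespace Vale.Agent.P132

universe u

variable {H : Type u} [NormedAddCommGroup H] [InnerProductSpace ℂ H] [CompleteSpace H]

/-- `𝔫_ψ = {x ∈ M : ψ(x* x) < ∞}`. -/
def nn (M : VonNeumannAlgebra H) (ψ : (H →L[ℂ] H) → ℝ≥0∞) : Set (H →L[ℂ] H) :=
  {x | x ∈ M ∧ ψ (star x * x) < ∞}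

/-- `ψ` is a faithful normal semifinite weight on `M`: it is an additive and positively homogeneous
map from the positive cone `M₊` to `[0, ∞]` (the values of `ψ` outside `M₊` are irrelevant), which
is faithful, preserves suprema of nonempty upwards directed subsets of `M₊` having a supremum
(normality), and for which `𝔫_ψ` is strongly dense in `M` (semifiniteness). -/
structure IsFNSWeight (M : VonNeumannAlgebra H) (ψ : (H →L[ℂ] H) → ℝ≥0∞) : Prop where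
  add : ∀ x ∈ M, ∀ y ∈ M, 0 ≤ x → 0 ≤ y → ψ (x + y) = ψ x + ψ y
  smul : ∀ c : ℝ≥0, ∀ x ∈ M, 0 ≤ x → ψ ((c : ℂ) • x) = c * ψ x
  faithful : ∀ x ∈ M, 0 ≤ x → ψ x = 0 → x = 0
  normal : ∀ D : Set (H →L[ℂ] H), (∀ x ∈ D, x ∈ M ∧ 0 ≤ x) → D.Nonempty →
    DirectedOn (· ≤ ·) D → ∀ x ∈ M, IsLUB D x → ψ x = ⨆ y ∈ D, ψ y
  semifinite : ∀ x ∈ M, ∀ s : Finset H, ∀ ε > (0 : ℝ), ∃ y ∈ nn M ψ, ∀ ζ ∈ s, ‖y ζ - x ζ‖ < ε

/-- The GNS space of the weight `ψ`: a Hilbert space `K` with a linear map `Λ : 𝔫_ψ → K` with dense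
range and `‖Λ x‖² = ψ(x* x)`; it is unique up to unitary equivalence.  The values of `Λ` outside
`𝔫_ψ` are irrelevant. -/
structure WGNSSpace (M : VonNeumannAlgebra H) (ψ : (H →L[ℂ] H) → ℝ≥0∞) (K : Type u)
    [NormedAddCommGroup K] [InnerProductSpace ℂ K] where
  Λ : (H →L[ℂ] H) → K
  add : ∀ x ∈ nn M ψ, ∀ y ∈ nn M ψ, Λ (x + y) = Λ x + Λ y
  smul : ∀ c : ℂ, ∀ x ∈ nn M ψ, Λ (c • x) = c • Λ x
  norm_sq : ∀ x ∈ nn M ψ, ENNReal.ofReal (‖Λ x‖ ^ 2) = ψ (star x * x)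
  dense : Dense {ζ : K | ∃ x ∈ nn M ψ, Λ x = ζ}

variable {M : VonNeumannAlgebra H} {ψ : (H →L[ℂ] H) → ℝ≥0∞} {K : Type u}
  [NormedAddCommGroup K] [InnerProductSpace ℂ K]

/-- The graph of the closure of the conjugate linear operator `S : Λ x ↦ Λ (x*)`,
`x ∈ 𝔫_ψ ∩ 𝔫_ψ*`. -/
def WGNSSpace.graphS (G : WGNSSpace M ψ K) : Set (K × K) :=
  closure {p | ∃ x ∈ nn M ψ, star x ∈ nn M ψ ∧ p = (G.Λ x, G.Λ (star x))}

/-- The graph of the modular operator `Δ_ψ = S* S` (`S` the closed operator above): `(ζ, θ)` belongs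
to it if and only if `ζ` is in the domain of `S`, `S ζ` is in the domain of `S*`, and
`S* S ζ = θ`.  Here `S* η = θ` means `⟨S ζ', η⟩ = ⟨θ, ζ'⟩` (inner product conjugate linear in the
first variable) for all `ζ'` in the domain of `S`; it suffices to take `ζ' = Λ x`,
`x ∈ 𝔫_ψ ∩ 𝔫_ψ*`. -/
def WGNSSpace.graphΔ (G : WGNSSpace M ψ K) : Set (K × K) :=
  {p | ∃ η : K, (p.1, η) ∈ G.graphS ∧
    ∀ x ∈ nn M ψ, star x ∈ nn M ψ → ⟪G.Λ (star x), η⟫_ℂ = ⟪p.2, G.Λ x⟫_ℂ}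

/-- The spectrum of the modular operator: all real `t` such that `Δ_ψ - t` is not a bijection from
the domain of `Δ_ψ` onto `K`. -/
def WGNSSpace.spectrumΔ (G : WGNSSpace M ψ K) : Set ℝ :=
  {t | ¬ ∀ ζ' : K, ∃! ζ : K, (ζ, (t : ℂ) • ζ + ζ') ∈ G.graphΔ}

/-- Connes' invariant `S(M)`: the intersection of the spectra of the modular operators of the
faithful normal semifinite weights on `M`. -/
def connesInvariant (M : VonNeumannAlgebra H) : Set ℝ :=
  {t | ∀ ψ : (H →L[ℂ] H) → ℝ≥0∞, IsFNSWeight M ψ →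
    ∀ (K : Type u) [NormedAddCommGroup K] [InnerProductSpace ℂ K] [CompleteSpace K]
      (G : WGNSSpace M ψ K), t ∈ G.spectrumΔ}

/-- Type III₁ factors: factors with `S(M) = [0, ∞)`. -/
structure IsTypeIIIOneFactor (M : VonNeumannAlgebra H) : Prop where
  factor : IsFactor M
  connes : connesInvariant M = Set.Ici 0

end Vale.Agent.P132
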